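import Vale.Agent.P123.H686.CcDefs

/-! # P123: complete spectral sets and similarity -/

open Polynomial

namespace Vale.Agent.P123.H628

open Vale.Agent.P123.H686

/-- The closure of `K ⊆ ℂ` is a complete spectral set of the bounded operator `B`: for every complex
polynomial `Q` without zero in the closure of `K` the operator `Q(B)` is invertible, and for all
`n` and all `n × n` matrices `P = (Pᵢⱼ)` of complex polynomials
`‖(Pᵢⱼ(B) Q(B)⁻¹)‖ ≤ sup_{z ∈ K} ‖(Pᵢⱼ(z) / Q(z))‖`, the operator norms being those of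
`H ⊕ ⋯ ⊕ H` and of `ℂⁿ`. -/
def CompleteSpectral {H : Type*} [NormedAddCommGroup H] [InnerProductSpace ℂ H] (K : Set ℂ)
    (B : H →L[ℂ] H) : Prop :=
  ∀ Q : ℂ[X], (∀ z ∈ closure K, Q.eval z ≠ 0) → IsUnit (aeval B Q) ∧
    ∀ (n : ℕ) (P : Fin n → Fin n → ℂ[X]),
      blockNorm (fun i j => aeval B (P i j) * Ring.inverse (aeval B Q)) ≤
        sSup ((fun z => matNorm fun i j => (P i j).eval z / Q.eval z) '' K)

/-- There is an invertible bounded operator `S` with `‖S‖ ‖S⁻¹‖ ≤ C` such that the closure of the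
numerical range `W(A)` is a complete spectral set of `S⁻¹ A S`. -/
def SimilarSpectral {H : Type*} [NormedAddCommGroup H] [InnerProductSpace ℂ H] (A : H →L[ℂ] H)
    (C : ℝ) : Prop :=
  ∃ S : (H →L[ℂ] H)ˣ, ‖(S : H →L[ℂ] H)‖ * ‖(↑S⁻¹ : H →L[ℂ] H)‖ ≤ C ∧
    CompleteSpectral (W A) ((↑S⁻¹ : H →L[ℂ] H) * A * (↑S : H →L[ℂ] H))

end Vale.Agent.P123.H628
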