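import Vale.Agent.P123.H686.Mat5

/-! # P123: the complete bound for rectangular matrices over finite types -/

open Polynomial Finset

namespace Vale.Agent.P123.H628

open Vale.Agent.P123.H686

variable {H : Type*} [NormedAddCommGroup H] [InnerProductSpace ℂ H] [CompleteSpace H]

/-- the complete bound in terms of sums of squares, square matrices -/
theorem bound_sq [Nontrivial H] (A : H →L[ℂ] H) {n : ℕ} (M : Fin n → Fin n → ℂ[X])
    (hM : ∀ z ∈ W A, ∀ c : Fin n → ℂ,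
      ∑ i, ‖∑ k, (M i k).eval z * c k‖ ^ 2 ≤ ∑ k, ‖c k‖ ^ 2) (x : Fin n → H) :
    ∑ i, ‖∑ k, aeval A (M i k) (x k)‖ ^ 2 ≤ 4 * ∑ k, ‖x k‖ ^ 2 := by
  have h1 := polyBound_two A n M
  have h2 : sSup ((fun z => matNorm fun i j => (M i j).eval z) '' W A) ≤ 1 := by
    apply Real.sSup_le _ zero_le_one
    rintro r ⟨z, hz, rfl⟩
    apply Real.sSup_le _ zero_le_one
    rintro r ⟨c, hc, rfl⟩
    apply Real.sqrt_le_iff.2 ⟨zero_le_one, ?_⟩
    rw [one_pow]
    exact (hM z hz c).trans hc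
  have h3 : ‖blockOp fun i j => aeval A (M i j)‖ ≤ 2 := by
    rw [← blockNorm_eq]
    linarith
  have h4 := (blockOp fun i j => aeval A (M i j)).le_opNorm (WithLp.toLp 2 x)
  have h5 : ‖blockOp (fun i j => aeval A (M i j)) (WithLp.toLp 2 x)‖ ≤
      2 * ‖(WithLp.toLp 2 x : PiLp 2 (fun _ : Fin n => H))‖ :=
    h4.trans (mul_le_mul_of_nonneg_right h3 (norm_nonneg _))
  have h6 := pow_le_pow_left₀ (norm_nonneg _) h5 2
  rw [mul_pow, norm_sq_eq', norm_sq_eq'] at h6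
  simp only [blockOp_apply] at h6
  norm_num at h6
  exact h6

/-- the complete bound for rectangular matrices -/
theorem bound_fintype [Nontrivial H] (A : H →L[ℂ] H) {α β : Type} [Fintype α] [Fintype β]
    (M : α → β → ℂ[X])
    (hM : ∀ z ∈ W A, ∀ c : β → ℂ,
      ∑ i, ‖∑ k, (M i k).eval z * c k‖ ^ 2 ≤ ∑ k, ‖c k‖ ^ 2) (x : β → H) :
    ∑ i, ‖∑ k, aeval A (M i k) (x k)‖ ^ 2 ≤ 4 * ∑ k, ‖x k‖ ^ 2 := by
  classical
  set e : Fin (Fintype.card (α ⊕ β)) ≃ α ⊕ β := (Fintype.equivFin (α ⊕ β)).symm with he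
  set M' : α ⊕ β → α ⊕ β → ℂ[X] := fun s t =>
    Sum.elim (fun i => Sum.elim (fun _ => 0) (fun k => M i k) t) (fun _ => 0) s with hM'
  have key := bound_sq A (fun s t => M' (e s) (e t)) (fun z hz c => ?_)
    (fun s => Sum.elim (fun _ => 0) x (e s))
  · have e1 : ∀ s, ∑ t, aeval A (M' (e s) (e t)) (Sum.elim (fun _ => (0 : H)) x (e t)) =
        ∑ t : α ⊕ β, aeval A (M' (e s) t) (Sum.elim (fun _ => (0 : H)) x t) := fun s =>
      e.sum_comp fun t => aeval A (M' (e s) t) (Sum.elim (fun _ => (0 : H)) x t)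
    simp only [e1] at key
    rw [e.sum_comp fun s : α ⊕ β =>
      ‖∑ t : α ⊕ β, aeval A (M' s t) (Sum.elim (fun _ => (0 : H)) x t)‖ ^ 2,
      e.sum_comp fun s : α ⊕ β => ‖(Sum.elim (fun _ => (0 : H)) x s : H)‖ ^ 2] at key
    simp only [Fintype.sum_sum_type, hM', Sum.elim_inl, Sum.elim_inr, map_zero, norm_zero, ne_eq,
      OfNat.ofNat_ne_zero, not_false_eq_true, zero_pow, sum_const_zero, zero_add, add_zero,
      _root_.zero_apply] at key
    exact key
  · have e1 : ∀ s, ∑ t, (M' (e s) (e t)).eval z * c t =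
        ∑ t : α ⊕ β, (M' (e s) t).eval z * c (e.symm t) := by
      intro s
      rw [← e.sum_comp fun t => (M' (e s) t).eval z * c (e.symm t)]
      simp
    simp only [e1]
    rw [e.sum_comp fun s : α ⊕ β => ‖∑ t : α ⊕ β, (M' s t).eval z * c (e.symm t)‖ ^ 2]
    have e2 : ∑ k, ‖c k‖ ^ 2 = ∑ t : α ⊕ β, ‖c (e.symm t)‖ ^ 2 := by
      rw [← e.sum_comp fun t => ‖c (e.symm t)‖ ^ 2]
      simp
    rw [e2]
    simp only [Fintype.sum_sum_type, hM', Sum.elim_inl, Sum.elim_inr, eval_zero, zero_mul,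
      sum_const_zero, zero_add, norm_zero, ne_eq, OfNat.ofNat_ne_zero, not_false_eq_true, zero_pow,
      add_zero]
    have h1 := hM z hz fun k => c (e.symm (Sum.inr k))
    have h2 : 0 ≤ ∑ i, ‖c (e.symm (Sum.inl i))‖ ^ 2 := Finset.sum_nonneg fun _ _ => by positivity
    linarith

end Vale.Agent.P123.H628
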