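import Vale.Agent.P123.H628.St1

/-! # P123: the key inequality for vector-valued polynomials -/

open Polynomial Finset

namespace Vale.Agent.P123.H628

open Vale.Agent.P123.H686

section spectral
variable {U : Type*} [NormedAddCommGroup U] [InnerProductSpace ℂ U] [FiniteDimensional ℂ U]

/-- the finite rank operator `∑ ⟨h_i, ·⟩ h_i` -/
noncomputable def rankOp {α : Type} [Fintype α] (h : α → U) : U →ₗ[ℂ] U where
  toFun u := ∑ i, (inner ℂ (h i) u : ℂ) • h i
  map_add' u w := by
    rw [← Finset.sum_add_distrib]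
    refine Finset.sum_congr rfl fun i _ => ?_
    rw [inner_add_right, add_smul]
  map_smul' c u := by
    rw [RingHom.id_apply, Finset.smul_sum]
    refine Finset.sum_congr rfl fun i _ => ?_
    rw [inner_smul_right, mul_smul]

omit [FiniteDimensional ℂ U] in
theorem rankOp_apply {α : Type} [Fintype α] (h : α → U) (u : U) :
    rankOp h u = ∑ i, (inner ℂ (h i) u : ℂ) • h i := rfl

omit [FiniteDimensional ℂ U] in
theorem rankOp_symm {α : Type} [Fintype α] (h : α → U) : (rankOp h).IsSymmetric := by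
  intro u w
  rw [rankOp_apply, rankOp_apply, sum_inner, inner_sum]
  refine Finset.sum_congr rfl fun i _ => ?_
  rw [inner_smul_left, inner_smul_right, inner_conj_symm, mul_comm]

omit [FiniteDimensional ℂ U] in
theorem inner_rankOp {α : Type} [Fintype α] (h : α → U) (u : U) :
    inner ℂ u (rankOp h u) = ((∑ i, ‖(inner ℂ u (h i) : ℂ)‖ ^ 2 : ℝ) : ℂ) := by
  rw [rankOp_apply, inner_sum]
  push_cast
  refine Finset.sum_congr rfl fun i _ => ?_
  rw [inner_smul_right, ← inner_conj_symm (h i) u, ← Complex.ofReal_pow, ← Complex.normSq_eq_norm_sq,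
    mul_comm, Complex.mul_conj]

/-- an orthonormal basis diagonalising a finite sum of squares -/
theorem exists_diag {α : Type} [Fintype α] (h : α → U) :
    ∃ (d : ℕ) (b : OrthonormalBasis (Fin d) ℂ U) (μ : Fin d → ℝ), (∀ k, 0 ≤ μ k) ∧
      ∑ k, μ k = ∑ i, ‖h i‖ ^ 2 ∧
      ∀ a : Fin d → ℂ, ∑ i, ‖(inner ℂ (∑ k, a k • b k) (h i) : ℂ)‖ ^ 2 = ∑ k, μ k * ‖a k‖ ^ 2 := by
  classical
  set b := (rankOp_symm h).eigenvectorBasis rfl with hb
  set μ := (rankOp_symm h).eigenvalues rfl with hμ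
  have hev : ∀ k, rankOp h (b k) = (μ k : ℂ) • b k := fun k =>
    (rankOp_symm h).apply_eigenvectorBasis rfl k
  have hform : ∀ a : Fin (Module.finrank ℂ U) → ℂ,
      ∑ i, ‖(inner ℂ (∑ k, a k • b k) (h i) : ℂ)‖ ^ 2 = ∑ k, μ k * ‖a k‖ ^ 2 := by
    intro a
    have h1 := inner_rankOp h (∑ k, a k • b k)
    have h2 : rankOp h (∑ k, a k • b k) = ∑ k, (a k * μ k) • b k := by
      rw [map_sum]
      refine Finset.sum_congr rfl fun k _ => ?_
      rw [map_smul, hev, smul_smul]
    rw [h2, b.orthonormal.inner_sum] at h1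
    have h3 : ∑ k, (starRingEnd ℂ) (a k) * (a k * μ k) = ((∑ k, μ k * ‖a k‖ ^ 2 : ℝ) : ℂ) := by
      push_cast
      refine Finset.sum_congr rfl fun k _ => ?_
      rw [← Complex.ofReal_pow, ← Complex.normSq_eq_norm_sq, ← Complex.mul_conj]
      ring
    rw [h3] at h1
    exact_mod_cast h1.symm
  have hμk : ∀ k, μ k = ∑ i, ‖(inner ℂ (b k) (h i) : ℂ)‖ ^ 2 := by
    intro k
    have h1 := hform (fun l => if l = k then 1 else 0)
    have h2 : ∑ l, (if l = k then (1 : ℂ) else 0) • b l = b k := by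
      simp
    rw [h2] at h1
    rw [h1, Finset.sum_eq_single k]
    · simp
    · intro l _ hl; simp [hl]
    · intro hk; exact absurd (Finset.mem_univ k) hk
  refine ⟨_, b, μ, fun k => ?_, ?_, hform⟩
  · rw [hμk]; positivity
  · simp only [hμk]
    rw [Finset.sum_comm]
    refine Finset.sum_congr rfl fun i _ => ?_
    exact b.sum_sq_norm_inner_right (h i)

end spectral

variable {H : Type*} [NormedAddCommGroup H] [InnerProductSpace ℂ H] [CompleteSpace H]

/-- the key inequality -/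
theorem key_ineq [Nontrivial H] (A : H →L[ℂ] H) {α β : Type} [Fintype α] [Fintype β]
    (h : α → H) (γ : β → Type) [∀ j, Fintype (γ j)] (p : (j : β) → γ j → ℂ[X])
    (g : (j : β) → γ j → H)
    (hyp : ∀ z ∈ W A, ∀ v : H,
      ∑ j, ‖(inner ℂ v (∑ l, (p j l).eval z • g j l) : ℂ)‖ ^ 2 ≤
        ∑ i, ‖(inner ℂ v (h i) : ℂ)‖ ^ 2) :
    ∑ j, ‖∑ l, aeval A (p j l) (g j l)‖ ^ 2 ≤ 4 * ∑ i, ‖h i‖ ^ 2 := by
  classical
  set U : Submodule ℂ H := Submodule.span ℂ (Set.range h ∪ ⋃ j, Set.range (g j)) with hU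
  have hfin : (Set.range h ∪ ⋃ j, Set.range (g j)).Finite :=
    (Set.finite_range h).union (Set.finite_iUnion fun j => Set.finite_range _)
  haveI : FiniteDimensional ℂ U := FiniteDimensional.span_of_finite ℂ hfin
  have hhU : ∀ i, h i ∈ U := fun i => Submodule.subset_span (Or.inl ⟨i, rfl⟩)
  have hgU : ∀ j l, g j l ∈ U := fun j l =>
    Submodule.subset_span (Or.inr (Set.mem_iUnion.2 ⟨j, l, rfl⟩))
  obtain ⟨d, b, μ, hμ0, hμs, hform⟩ := exists_diag (U := U) fun i => ⟨h i, hhU i⟩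
  have hrepr : ∀ j l, g j l = ∑ k, (inner ℂ (b k : H) (g j l) : ℂ) • (b k : H) := by
    intro j l
    have h1 := b.sum_repr' ⟨g j l, hgU j l⟩
    have h2 := congrArg (Subtype.val) h1
    rw [Submodule.coe_sum] at h2
    exact h2.symm
  apply le_of_forall_pos_le_add
  intro δ hδ
  set ε : ℝ := δ / (4 * d + 1) with hε
  have hε0 : 0 < ε := by positivity
  have hβ : ∀ k, 0 < μ k + ε := fun k => by have := hμ0 k; linarith
  have hsq : ∀ k, 0 < √(μ k + ε) := fun k => Real.sqrt_pos.2 (hβ k)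
  have hsqc : ∀ k, ((√(μ k + ε) : ℝ) : ℂ) ≠ 0 := fun k => by exact_mod_cast (hsq k).ne'
  set M : β → Fin d → ℂ[X] := fun j k =>
    ∑ l, C (((√(μ k + ε) : ℝ) : ℂ)⁻¹ * (inner ℂ (b k : H) (g j l) : ℂ)) * p j l with hM
  have key := bound_fintype A M (fun z hz c => ?_) (fun k => ((√(μ k + ε) : ℝ) : ℂ) • (b k : H))
  · have e1 : ∀ j, ∑ k, aeval A (M j k) (((√(μ k + ε) : ℝ) : ℂ) • (b k : H)) =
        ∑ l, aeval A (p j l) (g j l) := by
      intro j
      have e2 : ∀ k, aeval A (M j k) (((√(μ k + ε) : ℝ) : ℂ) • (b k : H)) =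
          ∑ l, aeval A (p j l) ((inner ℂ (b k : H) (g j l) : ℂ) • (b k : H)) := by
        intro k
        simp only [hM, map_sum, map_mul, aeval_C]
        rw [ContinuousLinearMap.sum_apply]
        refine Finset.sum_congr rfl fun l _ => ?_
        rw [ContinuousLinearMap.mul_apply, ContinuousLinearMap.mul_apply,
          ContinuousLinearMap.algebraMap_apply, ContinuousLinearMap.algebraMap_apply, map_smul,
          map_smul, smul_smul, smul_smul]
        congr 1
        field_simp [hsqc k]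
      rw [Finset.sum_congr rfl fun k _ => e2 k, Finset.sum_comm]
      refine Finset.sum_congr rfl fun l _ => ?_
      rw [← map_sum, ← hrepr]
    have e3 : ∀ k, ‖((√(μ k + ε) : ℝ) : ℂ) • (b k : H)‖ ^ 2 = μ k + ε := by
      intro k
      have e4 : ‖(b k : H)‖ = 1 := b.orthonormal.1 k
      rw [norm_smul, e4, mul_one, Complex.norm_real, Real.norm_eq_abs, sq_abs,
        Real.sq_sqrt (hβ k).le]
    simp only [e1, e3] at key
    refine key.trans ?_
    rw [Finset.sum_add_distrib, hμs]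
    simp only [Finset.sum_const, Finset.card_univ, Fintype.card_fin, nsmul_eq_mul]
    have e5 : 4 * ((d : ℝ) * ε) ≤ δ := by
      rw [hε]
      have : 4 * ((d : ℝ) * (δ / (4 * d + 1))) = δ * (4 * d / (4 * d + 1)) := by ring
      rw [this]
      have h6 : (4 * d / (4 * d + 1) : ℝ) ≤ 1 := by
        rw [div_le_one (by positivity)]; linarith
      nlinarith
    have e6 : ∑ i, ‖(⟨h i, hhU i⟩ : U)‖ ^ 2 = ∑ i, ‖h i‖ ^ 2 := rfl
    rw [e6]
    linarith
  · set a : Fin d → ℂ := fun k => (starRingEnd ℂ) (c k) * ((√(μ k + ε) : ℝ) : ℂ)⁻¹ with ha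
    set v : U := ∑ k, a k • b k with hv
    have hv' : (v : H) = ∑ k, a k • (b k : H) := by
      rw [hv, Submodule.coe_sum]; rfl
    have e1 : ∀ j, ∑ k, (M j k).eval z * c k = inner ℂ (v : H) (∑ l, (p j l).eval z • g j l) := by
      intro j
      rw [inner_sum]
      have e2 : ∀ l, inner ℂ (v : H) ((p j l).eval z • g j l) =
          ∑ k, ((√(μ k + ε) : ℝ) : ℂ)⁻¹ * (inner ℂ (b k : H) (g j l) : ℂ) *
            (p j l).eval z * c k := by
        intro l
        rw [inner_smul_right, hv', sum_inner, Finset.mul_sum]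
        refine Finset.sum_congr rfl fun k _ => ?_
        rw [inner_smul_left]
        simp only [ha, map_mul, Complex.conj_conj, map_inv₀, Complex.conj_ofReal]
        ring
      rw [Finset.sum_congr rfl fun l _ => e2 l, Finset.sum_comm]
      refine Finset.sum_congr rfl fun k _ => ?_
      simp only [hM, eval_finset_sum, eval_mul, eval_C, Finset.sum_mul]
    simp only [e1]
    refine (hyp z hz v).trans ?_
    have e3 := hform a
    have e4 : ∑ i, ‖(inner ℂ (v : H) (h i) : ℂ)‖ ^ 2 = ∑ k, μ k * ‖a k‖ ^ 2 := by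
      rw [← e3]; rfl
    rw [e4]
    refine Finset.sum_le_sum fun k _ => ?_
    have e5 : ‖a k‖ ^ 2 = ‖c k‖ ^ 2 / (μ k + ε) := by
      simp only [ha]
      rw [norm_mul, RCLike.norm_conj, norm_inv, Complex.norm_real, Real.norm_eq_abs,
        abs_of_pos (hsq k), mul_pow, inv_pow, Real.sq_sqrt (hβ k).le]
      rfl
    rw [e5, mul_div_assoc', div_le_iff₀ (hβ k)]
    have e6 : 0 ≤ ‖c k‖ ^ 2 := by positivity
    nlinarith

end Vale.Agent.P123.H628
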