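import Vale.Agent.P123.H628.St2

/-! # P123: the Hahn-Banach functional -/

open Polynomial Finset

namespace Vale.Agent.P123.H628

open Vale.Agent.P123.H686

variable {H : Type*} [NormedAddCommGroup H] [InnerProductSpace ℂ H]

/-- vector-valued polynomials together with their value at `A`: the pairs
`(z ↦ ∑ p_l(z) g_l, ∑ p_l(A) g_l)` -/
def VS (A : H →L[ℂ] H) : Submodule ℂ ((ℂ → H) × H) where
  carrier := {w | ∃ (γ : Type) (_ : Fintype γ) (p : γ → ℂ[X]) (g : γ → H),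
    (w.1 = fun z => ∑ l, (p l).eval z • g l) ∧ w.2 = ∑ l, aeval A (p l) (g l)}
  add_mem' := by
    rintro w w' ⟨γ, _, p, g, h1, h2⟩ ⟨γ', _, p', g', h1', h2'⟩
    refine ⟨γ ⊕ γ', inferInstance, Sum.elim p p', Sum.elim g g', ?_, ?_⟩
    · funext z
      simp [h1, h1']
    · simp [h2, h2']
  zero_mem' := ⟨Empty, inferInstance, fun x => x.elim, fun x => x.elim, by funext z; simp, by simp⟩
  smul_mem' := by
    rintro c w ⟨γ, _, p, g, h1, h2⟩
    refine ⟨γ, inferInstance, fun l => C c * p l, g, ?_, ?_⟩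
    · funext z
      simp [h1, Finset.smul_sum, mul_smul]
    · simp [h2, Finset.smul_sum]

/-- real functions of `z` and `v` which are dominated on `W(A)` by finite sums `∑ |⟨v, h_i⟩|²` -/
def MS (A : H →L[ℂ] H) : Submodule ℝ (ℂ → H → ℝ) where
  carrier := {M | ∃ (α : Type) (_ : Fintype α) (h : α → H), ∀ z ∈ W A, ∀ v : H,
    |M z v| ≤ ∑ i, ‖(inner ℂ v (h i) : ℂ)‖ ^ 2}
  add_mem' := by
    rintro M M' ⟨α, _, h, hh⟩ ⟨α', _, h', hh'⟩
    refine ⟨α ⊕ α', inferInstance, Sum.elim h h', fun z hz v => ?_⟩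
    simp only [Fintype.sum_sum_type, Sum.elim_inl, Sum.elim_inr, Pi.add_apply]
    exact (abs_add_le _ _).trans (add_le_add (hh z hz v) (hh' z hz v))
  zero_mem' := ⟨Empty, inferInstance, fun x => x.elim, fun z _ v => by simp⟩
  smul_mem' := by
    rintro c M ⟨α, _, h, hh⟩
    refine ⟨α, inferInstance, fun i => ((√|c| : ℝ) : ℂ) • h i, fun z hz v => ?_⟩
    have h1 : ∀ i, ‖(inner ℂ v (((√|c| : ℝ) : ℂ) • h i) : ℂ)‖ ^ 2 =
        |c| * ‖(inner ℂ v (h i) : ℂ)‖ ^ 2 := by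
      intro i
      rw [inner_smul_right, norm_mul, Complex.norm_real, Real.norm_eq_abs, mul_pow, sq_abs,
        Real.sq_sqrt (abs_nonneg c)]
    simp only [h1, ← Finset.mul_sum, Pi.smul_apply, smul_eq_mul, abs_mul]
    exact mul_le_mul_of_nonneg_left (hh z hz v) (abs_nonneg c)

theorem inner_real_smul_sq (v h : H) {c : ℝ} (hc : 0 ≤ c) :
    ‖(inner ℂ v (((√c : ℝ) : ℂ) • h) : ℂ)‖ ^ 2 = c * ‖(inner ℂ v h : ℂ)‖ ^ 2 := by
  rw [inner_smul_right, norm_mul, Complex.norm_real, Real.norm_eq_abs, mul_pow, sq_abs,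
    Real.sq_sqrt hc]

theorem norm_real_smul_sq (h : H) {c : ℝ} (hc : 0 ≤ c) :
    ‖((√c : ℝ) : ℂ) • h‖ ^ 2 = c * ‖h‖ ^ 2 := by
  rw [norm_smul, Complex.norm_real, Real.norm_eq_abs, mul_pow, sq_abs, Real.sq_sqrt hc]

/-- admissible values of the sublinear functional -/
def Adm (A : H →L[ℂ] H) (M : MS A) (r : ℝ) : Prop :=
  ∃ (α : Type) (_ : Fintype α) (β : Type) (_ : Fintype β) (h : α → H) (F : β → VS A),
    (∀ z ∈ W A, ∀ v : H, M.1 z v + ∑ j, ‖(inner ℂ v ((F j).1.1 z) : ℂ)‖ ^ 2 ≤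
      ∑ i, ‖(inner ℂ v (h i) : ℂ)‖ ^ 2) ∧
    r = 4 * ∑ i, ‖h i‖ ^ 2 - ∑ j, ‖(F j).1.2‖ ^ 2

theorem Adm.add {A : H →L[ℂ] H} {M M' : MS A} {r r' : ℝ} (h : Adm A M r) (h' : Adm A M' r') :
    Adm A (M + M') (r + r') := by
  obtain ⟨α, _, β, _, f, F, h1, rfl⟩ := h
  obtain ⟨α', _, β', _, f', F', h1', rfl⟩ := h'
  refine ⟨α ⊕ α', inferInstance, β ⊕ β', inferInstance, Sum.elim f f', Sum.elim F F',
    fun z hz v => ?_, ?_⟩
  · simp only [Fintype.sum_sum_type, Sum.elim_inl, Sum.elim_inr, Submodule.coe_add, Pi.add_apply]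
    have e1 := h1 z hz v
    have e2 := h1' z hz v
    linarith
  · simp only [Fintype.sum_sum_type, Sum.elim_inl, Sum.elim_inr]
    ring

theorem Adm.smul {A : H →L[ℂ] H} {M : MS A} {r c : ℝ} (hc : 0 ≤ c) (h : Adm A M r) :
    Adm A (c • M) (c * r) := by
  obtain ⟨α, _, β, _, f, F, h1, rfl⟩ := h
  refine ⟨α, inferInstance, β, inferInstance, fun i => ((√c : ℝ) : ℂ) • f i,
    fun j => ((√c : ℝ) : ℂ) • F j, fun z hz v => ?_, ?_⟩
  · have e1 := h1 z hz v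
    have e2 : ∀ j, ‖(inner ℂ v (((((√c : ℝ) : ℂ) • F j : VS A)).1.1 z) : ℂ)‖ ^ 2 =
        c * ‖(inner ℂ v ((F j).1.1 z) : ℂ)‖ ^ 2 := fun j => inner_real_smul_sq v _ hc
    simp only [inner_real_smul_sq v _ hc, e2, ← Finset.mul_sum]
    have e3 : (c • M : MS A).1 z v = c * M.1 z v := rfl
    rw [e3, ← mul_add]
    exact mul_le_mul_of_nonneg_left e1 hc
  · have e2 : ∀ j, ‖((((√c : ℝ) : ℂ) • F j : VS A)).1.2‖ ^ 2 = c * ‖(F j).1.2‖ ^ 2 :=
      fun j => norm_real_smul_sq _ hc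
    simp only [norm_real_smul_sq _ hc, e2, ← Finset.mul_sum]
    ring

theorem Adm.nonempty {A : H →L[ℂ] H} (M : MS A) : ∃ r, Adm A M r := by
  obtain ⟨α, _, h, hh⟩ := M.2
  refine ⟨_, α, inferInstance, Empty, inferInstance, h, fun x => x.elim, fun z hz v => ?_, rfl⟩
  simp only [univ_eq_empty, sum_empty, add_zero]
  exact (le_abs_self _).trans (hh z hz v)

variable [CompleteSpace H] [Nontrivial H]

theorem key_VS (A : H →L[ℂ] H) {α β : Type} [Fintype α] [Fintype β] (h : α → H) (F : β → VS A)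
    (hyp : ∀ z ∈ W A, ∀ v : H, ∑ j, ‖(inner ℂ v ((F j).1.1 z) : ℂ)‖ ^ 2 ≤
      ∑ i, ‖(inner ℂ v (h i) : ℂ)‖ ^ 2) :
    ∑ j, ‖(F j).1.2‖ ^ 2 ≤ 4 * ∑ i, ‖h i‖ ^ 2 := by
  have h0 : ∀ j, ∃ (γ : Type) (_ : Fintype γ) (p : γ → ℂ[X]) (g : γ → H),
    ((F j).1.1 = fun z => ∑ l, (p l).eval z • g l) ∧ (F j).1.2 = ∑ l, aeval A (p l) (g l) :=
    fun j => (F j).2
  choose γ hγ p g h1 h2 using h0
  have key := key_ineq A h γ p g (fun z hz v => by
    have := hyp z hz v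
    simp only [h1] at this
    exact this)
  simp only [h2]
  exact key

theorem Adm.bound {A : H →L[ℂ] H} (M : MS A) : ∃ B : ℝ, ∀ r, Adm A M r → B ≤ r := by
  obtain ⟨α₀, _, h₀, hh⟩ := M.2
  refine ⟨-(4 * ∑ i, ‖h₀ i‖ ^ 2), fun r hr => ?_⟩
  obtain ⟨α, _, β, _, f, F, h1, rfl⟩ := hr
  have key := key_VS A (Sum.elim f h₀) F (fun z hz v => by
    simp only [Fintype.sum_sum_type, Sum.elim_inl, Sum.elim_inr]
    have e1 := h1 z hz v
    have e2 := (abs_le.1 (hh z hz v)).1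
    linarith)
  simp only [Fintype.sum_sum_type, Sum.elim_inl, Sum.elim_inr] at key
  linarith

/-- the sublinear functional -/
noncomputable def NN (A : H →L[ℂ] H) (M : MS A) : ℝ := sInf {r | Adm A M r}

omit [CompleteSpace H] [Nontrivial H] in
theorem setNonempty {A : H →L[ℂ] H} (M : MS A) : {r | Adm A M r}.Nonempty := Adm.nonempty M

theorem bddBelow {A : H →L[ℂ] H} (M : MS A) : BddBelow {r | Adm A M r} := by
  obtain ⟨B, hB⟩ := Adm.bound M
  exact ⟨B, fun r hr => hB r hr⟩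

theorem NN_le {A : H →L[ℂ] H} {M : MS A} {r : ℝ} (h : Adm A M r) : NN A M ≤ r :=
  csInf_le (bddBelow M) h

theorem NN_add (A : H →L[ℂ] H) (M M' : MS A) : NN A (M + M') ≤ NN A M + NN A M' := by
  have h1 : ∀ r, Adm A M r → NN A (M + M') - NN A M' ≤ r := by
    intro r hr
    have h2 : ∀ r', Adm A M' r' → NN A (M + M') - r ≤ r' := by
      intro r' hr'
      have := NN_le (hr.add hr')
      linarith
    have h3 : NN A (M + M') - r ≤ NN A M' := le_csInf (setNonempty M') fun r' hr' => h2 r' hr'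
    linarith
  have h4 : NN A (M + M') - NN A M' ≤ NN A M := le_csInf (setNonempty M) fun r hr => h1 r hr
  linarith

theorem NN_smul_le (A : H →L[ℂ] H) (M : MS A) {c : ℝ} (hc : 0 < c) : NN A (c • M) ≤ c * NN A M := by
  have h1 : NN A (c • M) / c ≤ NN A M := by
    refine le_csInf (setNonempty M) fun r hr => ?_
    rw [div_le_iff₀ hc]
    have := NN_le (Adm.smul hc.le hr)
    linarith
  rw [div_le_iff₀ hc] at h1
  linarith

theorem NN_smul (A : H →L[ℂ] H) (M : MS A) {c : ℝ} (hc : 0 < c) : NN A (c • M) = c * NN A M := by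
  apply le_antisymm (NN_smul_le A M hc)
  have h1 := NN_smul_le A (c • M) (inv_pos.2 hc)
  rw [smul_smul, inv_mul_cancel₀ hc.ne', one_smul, inv_mul_eq_div, le_div_iff₀ hc] at h1
  linarith

/-- the Hahn-Banach functional -/
theorem exists_functional (A : H →L[ℂ] H) : ∃ ℓ : MS A →ₗ[ℝ] ℝ,
    (∀ M : MS A, (∀ z ∈ W A, ∀ v : H, M.1 z v ≤ 0) → ℓ M ≤ 0) ∧
    (∀ (h : H) (M : MS A), (∀ z ∈ W A, ∀ v : H, M.1 z v ≤ ‖(inner ℂ v h : ℂ)‖ ^ 2) →
      ℓ M ≤ 4 * ‖h‖ ^ 2) ∧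
    (∀ (F : VS A) (M : MS A), (∀ z ∈ W A, ∀ v : H,
      ‖(inner ℂ v (F.1.1 z) : ℂ)‖ ^ 2 ≤ M.1 z v) → ‖F.1.2‖ ^ 2 ≤ ℓ M) := by
  have h0 : 0 ≤ NN A (0 : MS A) := by
    refine le_csInf (setNonempty _) fun r hr => ?_
    obtain ⟨α, _, β, _, f, F, h1, rfl⟩ := hr
    have key := key_VS A f F (fun z hz v => by
      have e1 := h1 z hz v
      have e2 : (0 : MS A).1 z v = 0 := rfl
      rw [e2, zero_add] at e1
      exact e1)
    linarith
  obtain ⟨ℓ, -, hℓ⟩ := exists_extension_of_le_sublinear (E := MS A)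
    (⟨⊥, 0⟩ : MS A →ₗ.[ℝ] ℝ) (NN A) (fun c hc M => NN_smul A M hc) (NN_add A) (by
      rintro ⟨x, hx⟩
      have hx' : x = 0 := by simpa using hx
      subst hx'
      exact h0)
  refine ⟨ℓ, fun M hM => ?_, fun h M hM => ?_, fun F M hM => ?_⟩
  · refine (hℓ M).trans (NN_le ⟨Empty, inferInstance, Empty, inferInstance, fun x => x.elim,
      fun x => x.elim, fun z hz v => ?_, ?_⟩)
    · simpa using hM z hz v
    · simp
  · refine (hℓ M).trans (NN_le ⟨Unit, inferInstance, Empty, inferInstance, fun _ => h,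
      fun x => x.elim, fun z hz v => ?_, ?_⟩)
    · simpa using hM z hz v
    · simp
  · have h1 : ℓ (-M) ≤ -‖F.1.2‖ ^ 2 := by
      refine (hℓ (-M)).trans (NN_le ⟨Empty, inferInstance, Unit, inferInstance, fun x => x.elim,
        fun _ => F, fun z hz v => ?_, ?_⟩)
      · have e1 : (-M : MS A).1 z v = -(M.1 z v) := rfl
        have e2 := hM z hz v
        simp only [e1, univ_unique, sum_const, card_singleton, one_smul, univ_eq_empty, sum_empty]
        linarith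
      · simp
    rw [map_neg] at h1
    linarith

end Vale.Agent.P123.H628
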