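import Vale.Agent.P123.H628.St3

/-! # P123: the Hilbert space of vector-valued polynomials -/

open Polynomial Finset

namespace Vale.Agent.P123.H628

open Vale.Agent.P123.H686

universe u

variable {H : Type u} [NormedAddCommGroup H] [InnerProductSpace ℂ H]

theorem norm_le_of_mem_W {A : H →L[ℂ] H} {z : ℂ} (hz : z ∈ W A) : ‖z‖ ≤ ‖A‖ := by
  obtain ⟨x, hx, rfl⟩ := hz
  calc ‖(inner ℂ x (A x) : ℂ)‖ ≤ ‖x‖ * ‖A x‖ := norm_inner_le_norm _ _
    _ ≤ ‖x‖ * (‖A‖ * ‖x‖) := mul_le_mul_of_nonneg_left (A.le_opNorm x) (norm_nonneg _)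
    _ = ‖A‖ := by rw [hx]; ring

theorem exists_bound_W (A : H →L[ℂ] H) (p : ℂ[X]) : ∃ C : ℝ, ∀ z ∈ W A, ‖p.eval z‖ ≤ C := by
  obtain ⟨C, hC⟩ := (isCompact_closedBall (0 : ℂ) ‖A‖).exists_bound_of_continuousOn
    (f := fun z => p.eval z) p.continuous.continuousOn
  exact ⟨C, fun z hz => hC z (by simpa using norm_le_of_mem_W hz)⟩

/-- the values of a vector polynomial are dominated on `W(A)` -/
theorem dominated {A : H →L[ℂ] H} (F : VS A) : ∃ (α : Type) (_ : Fintype α) (h : α → H),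
    ∀ z ∈ W A, ∀ v : H, ‖(inner ℂ v (F.1.1 z) : ℂ)‖ ^ 2 ≤ ∑ i, ‖(inner ℂ v (h i) : ℂ)‖ ^ 2 := by
  obtain ⟨γ, _, p, g, h1, -⟩ := F.2
  choose C hC using fun l => exists_bound_W A (p l)
  refine ⟨γ, inferInstance, fun l => ((√((Fintype.card γ : ℝ) * C l ^ 2) : ℝ) : ℂ) • g l,
    fun z hz v => ?_⟩
  have h2 : ∀ l, ‖(inner ℂ v (((√((Fintype.card γ : ℝ) * C l ^ 2) : ℝ) : ℂ) • g l) : ℂ)‖ ^ 2 =
      (Fintype.card γ : ℝ) * C l ^ 2 * ‖(inner ℂ v (g l) : ℂ)‖ ^ 2 := fun l =>
    inner_real_smul_sq v _ (by positivity)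
  simp only [h2]
  rw [h1, inner_sum]
  have h3 : ‖∑ l, (inner ℂ v ((p l).eval z • g l) : ℂ)‖ ≤ ∑ l, C l * ‖(inner ℂ v (g l) : ℂ)‖ := by
    refine (norm_sum_le _ _).trans (Finset.sum_le_sum fun l _ => ?_)
    rw [inner_smul_right, norm_mul]
    exact mul_le_mul_of_nonneg_right (hC l z hz) (norm_nonneg _)
  have h4 := pow_le_pow_left₀ (norm_nonneg _) h3 2
  refine h4.trans ?_
  have h5 := sq_sum_le_card_mul_sum_sq (s := (univ : Finset γ))
    (f := fun l => C l * ‖(inner ℂ v (g l) : ℂ)‖)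
  refine h5.trans (le_of_eq ?_)
  rw [Finset.card_univ, Finset.mul_sum]
  refine Finset.sum_congr rfl fun l _ => ?_
  ring

/-- `conj ⟨v, F(z)⟩ ⟨v, G(z)⟩` -/
noncomputable def xx {A : H →L[ℂ] H} (F G : VS A) (z : ℂ) (v : H) : ℂ :=
  (starRingEnd ℂ) (inner ℂ v (F.1.1 z)) * inner ℂ v (G.1.1 z)

theorem xx_dom {A : H →L[ℂ] H} (F G : VS A) : ∃ (α : Type) (_ : Fintype α) (h : α → H),
    ∀ z ∈ W A, ∀ v : H, ‖xx F G z v‖ ≤ ∑ i, ‖(inner ℂ v (h i) : ℂ)‖ ^ 2 := by
  obtain ⟨α, _, h, hh⟩ := dominated F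
  obtain ⟨β, _, k, hk⟩ := dominated G
  refine ⟨α ⊕ β, inferInstance, Sum.elim h k, fun z hz v => ?_⟩
  simp only [Fintype.sum_sum_type, Sum.elim_inl, Sum.elim_inr]
  have h1 := hh z hz v
  have h2 := hk z hz v
  have h3 : ‖xx F G z v‖ = ‖(inner ℂ v (F.1.1 z) : ℂ)‖ * ‖(inner ℂ v (G.1.1 z) : ℂ)‖ := by
    unfold xx
    rw [norm_mul, RCLike.norm_conj]
  rw [h3]
  nlinarith [sq_nonneg (‖(inner ℂ v (F.1.1 z) : ℂ)‖ - ‖(inner ℂ v (G.1.1 z) : ℂ)‖),
    sq_nonneg (‖(inner ℂ v (F.1.1 z) : ℂ)‖ + ‖(inner ℂ v (G.1.1 z) : ℂ)‖)]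

/-- real part -/
noncomputable def xre {A : H →L[ℂ] H} (F G : VS A) : MS A :=
  ⟨fun z v => (xx F G z v).re, by
    obtain ⟨α, _, h, hh⟩ := xx_dom F G
    exact ⟨α, inferInstance, h, fun z hz v => (Complex.abs_re_le_norm _).trans (hh z hz v)⟩⟩

/-- imaginary part -/
noncomputable def xim {A : H →L[ℂ] H} (F G : VS A) : MS A :=
  ⟨fun z v => (xx F G z v).im, by
    obtain ⟨α, _, h, hh⟩ := xx_dom F G
    exact ⟨α, inferInstance, h, fun z hz v => (Complex.abs_im_le_norm _).trans (hh z hz v)⟩⟩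

theorem xx_add_left {A : H →L[ℂ] H} (F F' G : VS A) (z : ℂ) (v : H) :
    xx (F + F') G z v = xx F G z v + xx F' G z v := by
  unfold xx
  have : (F + F').1.1 z = F.1.1 z + F'.1.1 z := rfl
  rw [this, inner_add_right, map_add, add_mul]

theorem xx_smul_left {A : H →L[ℂ] H} (c : ℂ) (F G : VS A) (z : ℂ) (v : H) :
    xx (c • F) G z v = (starRingEnd ℂ) c * xx F G z v := by
  unfold xx
  have : (c • F).1.1 z = c • F.1.1 z := rfl
  rw [this, inner_smul_right, map_mul, mul_assoc]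

theorem xx_symm {A : H →L[ℂ] H} (F G : VS A) (z : ℂ) (v : H) :
    xx G F z v = (starRingEnd ℂ) (xx F G z v) := by
  unfold xx
  rw [map_mul, Complex.conj_conj, mul_comm]

theorem xx_self {A : H →L[ℂ] H} (F : VS A) (z : ℂ) (v : H) :
    (xx F F z v).re = ‖(inner ℂ v (F.1.1 z) : ℂ)‖ ^ 2 := by
  unfold xx
  rw [mul_comm, Complex.mul_conj, Complex.ofReal_re, Complex.normSq_eq_norm_sq]

/-- a copy of the space of vector polynomials, to carry the new norm -/
def VT (A : H →L[ℂ] H) : Type u := ↥(VS A)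

noncomputable instance (A : H →L[ℂ] H) : AddCommGroup (VT A) := inferInstanceAs (AddCommGroup (VS A))
noncomputable instance (A : H →L[ℂ] H) : Module ℂ (VT A) := inferInstanceAs (Module ℂ (VS A))

/-- the form -/
noncomputable def core (A : H →L[ℂ] H) (ℓ : MS A →ₗ[ℝ] ℝ)
    (hℓ : ∀ F : VS A, 0 ≤ ℓ (xre F F)) : PreInnerProductSpace.Core ℂ (VT A) where
  inner F G := (ℓ (xre (show VS A from F) (show VS A from G)) : ℂ) +
    (ℓ (xim (show VS A from F) (show VS A from G)) : ℂ) * Complex.I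
  conj_inner_symm F G := by
    have e1 : xre (show VS A from G) (show VS A from F) =
        xre (show VS A from F) (show VS A from G) := by
      ext z v
      show (xx _ _ z v).re = (xx _ _ z v).re
      rw [xx_symm, Complex.conj_re]
    have e2 : xim (show VS A from G) (show VS A from F) =
        -xim (show VS A from F) (show VS A from G) := by
      ext z v
      show (xx _ _ z v).im = -(xx _ _ z v).im
      rw [xx_symm, Complex.conj_im]
    rw [e1, e2, map_neg]
    simp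
  re_inner_nonneg F := by
    have := hℓ (show VS A from F)
    simpa using this
  add_left F F' G := by
    have e1 : xre (show VS A from (F + F' : VT A)) (show VS A from G) =
        xre (show VS A from F) (show VS A from G) + xre (show VS A from F') (show VS A from G) := by
      ext z v
      show (xx _ _ z v).re = (xx _ _ z v).re + (xx _ _ z v).re
      rw [← Complex.add_re, ← xx_add_left]; rfl
    have e2 : xim (show VS A from (F + F' : VT A)) (show VS A from G) =
        xim (show VS A from F) (show VS A from G) + xim (show VS A from F') (show VS A from G) := by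
      ext z v
      show (xx _ _ z v).im = (xx _ _ z v).im + (xx _ _ z v).im
      rw [← Complex.add_im, ← xx_add_left]; rfl
    rw [e1, e2, map_add, map_add]
    push_cast
    ring
  smul_left F G c := by
    have e1 : xre (show VS A from (c • F : VT A)) (show VS A from G) =
        c.re • xre (show VS A from F) (show VS A from G) +
          c.im • xim (show VS A from F) (show VS A from G) := by
      ext z v
      show (xx (c • (show VS A from F)) _ z v).re = c.re * (xx _ _ z v).re + c.im * (xx _ _ z v).im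
      rw [xx_smul_left]
      simp
    have e2 : xim (show VS A from (c • F : VT A)) (show VS A from G) =
        c.re • xim (show VS A from F) (show VS A from G) -
          c.im • xre (show VS A from F) (show VS A from G) := by
      ext z v
      show (xx (c • (show VS A from F)) _ z v).im = c.re * (xx _ _ z v).im - c.im * (xx _ _ z v).re
      rw [xx_smul_left]
      simp
      ring
    rw [e1, e2, map_add, map_sub, map_smul, map_smul, map_smul, map_smul]
    apply Complex.ext <;> simp <;> ring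

/-- the constant vector polynomial -/
noncomputable def cst (A : H →L[ℂ] H) (h : H) : VS A :=
  ⟨(fun _ => h, h), Unit, inferInstance, fun _ => 1, fun _ => h, by funext z; simp, by simp⟩

/-- **The Hilbert space of vector polynomials.** -/
theorem exists_hilbert [CompleteSpace H] [Nontrivial H] (A : H →L[ℂ] H) :
    ∃ (E : Type u) (_ : NormedAddCommGroup E) (_ : InnerProductSpace ℂ E) (_ : CompleteSpace E)
      (ι : VS A →ₗ[ℂ] E), DenseRange ι ∧ (∀ F : VS A, ‖F.1.2‖ ≤ ‖ι F‖) ∧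
      (∀ h : H, ‖ι (cst A h)‖ ≤ 2 * ‖h‖) ∧
      ∀ (n : ℕ) (F G : Fin n → VS A), (∀ z ∈ W A, ∀ v : H,
        ∑ i, ‖(inner ℂ v ((G i).1.1 z) : ℂ)‖ ^ 2 ≤ ∑ j, ‖(inner ℂ v ((F j).1.1 z) : ℂ)‖ ^ 2) →
        ∑ i, ‖ι (G i)‖ ^ 2 ≤ ∑ j, ‖ι (F j)‖ ^ 2 := by
  obtain ⟨ℓ, hℓ1, hℓ2, hℓ3⟩ := exists_functional A
  have hpos : ∀ F : VS A, ‖F.1.2‖ ^ 2 ≤ ℓ (xre F F) := fun F =>
    hℓ3 F (xre F F) fun z _ v => (xx_self F z v).ge
  have hpos0 : ∀ F : VS A, 0 ≤ ℓ (xre F F) := fun F => (by positivity : (0:ℝ) ≤ _).trans (hpos F)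
  letI : SeminormedAddCommGroup (VT A) :=
    @InnerProductSpace.Core.toSeminormedAddCommGroup ℂ (VT A) _ _ _ (core A ℓ hpos0)
  letI : InnerProductSpace ℂ (VT A) := InnerProductSpace.ofCore (core A ℓ hpos0)
  have hnorm : ∀ F : VT A, ‖F‖ ^ 2 = ℓ (xre (show VS A from F) (show VS A from F)) := by
    intro F
    rw [← inner_self_eq_norm_sq (𝕜 := ℂ)]
    show ((ℓ (xre (show VS A from F) (show VS A from F)) : ℂ) +
      (ℓ (xim (show VS A from F) (show VS A from F)) : ℂ) * Complex.I).re = _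
    simp
  let L : VS A →ₗ[ℂ] UniformSpace.Completion (VT A) :=
    { toFun := fun F => ((show VT A from F : VT A) : UniformSpace.Completion (VT A))
      map_add' := fun F G => UniformSpace.Completion.coe_add (α := VT A) _ _
      map_smul' := fun c F => UniformSpace.Completion.coe_smul (X := VT A) c _ }
  have hL : ∀ F : VS A, ‖L F‖ ^ 2 = ℓ (xre F F) := by
    intro F
    have h1 : ‖L F‖ = ‖(show VT A from F : VT A)‖ := UniformSpace.Completion.norm_coe _
    rw [h1, hnorm]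
  refine ⟨UniformSpace.Completion (VT A), inferInstance, inferInstance, inferInstance, L,
    ?_, fun F => ?_, fun h => ?_, fun n F G hFG => ?_⟩
  · exact UniformSpace.Completion.denseRange_coe (α := VT A)
  · have h1 := hpos F
    rw [← hL] at h1
    exact abs_le_of_sq_le_sq' h1 (norm_nonneg _) |>.2
  · have h1 : ‖L (cst A h)‖ ^ 2 ≤ (2 * ‖h‖) ^ 2 := by
      rw [hL, mul_pow]
      norm_num
      refine hℓ2 h (xre (cst A h) (cst A h)) fun z _ v => ?_
      exact (xx_self (cst A h) z v).le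
    exact abs_le_of_sq_le_sq' h1 (by positivity) |>.2
  · simp only [hL]
    rw [← map_sum, ← map_sum]
    have h1 := hℓ1 (∑ i, xre (G i) (G i) - ∑ j, xre (F j) (F j)) (fun z hz v => by
      have e1 : (∑ i, xre (G i) (G i) - ∑ j, xre (F j) (F j) : MS A).1 z v =
          ∑ i, ‖(inner ℂ v ((G i).1.1 z) : ℂ)‖ ^ 2 - ∑ j, ‖(inner ℂ v ((F j).1.1 z) : ℂ)‖ ^ 2 := by
        have e2 : ∀ K : Fin n → VS A, (∑ i, xre (K i) (K i) : MS A).1 z v =
            ∑ i, ‖(inner ℂ v ((K i).1.1 z) : ℂ)‖ ^ 2 := by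
          intro K
          rw [Submodule.coe_sum, Finset.sum_apply, Finset.sum_apply]
          exact Finset.sum_congr rfl fun i _ => xx_self (K i) z v
        rw [← e2, ← e2]; rfl
      rw [e1]
      linarith [hFG z hz v])
    rw [map_sub] at h1
    linarith

end Vale.Agent.P123.H628
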