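import Vale.Agent.P123.H628.St4

/-! # P123: the similarity -/

open Polynomial Finset

namespace Vale.Agent.P123.H628

open Vale.Agent.P123.H686

universe u

variable {H : Type u} [NormedAddCommGroup H] [InnerProductSpace ℂ H]

/-- multiplication of a vector polynomial by a polynomial -/
noncomputable def pm (A : H →L[ℂ] H) (q : ℂ[X]) (F : VS A) : VS A :=
  ⟨(fun z => q.eval z • F.1.1 z, aeval A q F.1.2), by
    obtain ⟨γ, _, p, g, h1, h2⟩ := F.2
    refine ⟨γ, inferInstance, fun l => q * p l, g, ?_, ?_⟩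
    · funext z
      simp only [h1, Finset.smul_sum, eval_mul, mul_smul]
    · simp only [h2, map_sum, map_mul, ContinuousLinearMap.mul_apply]⟩

/-- matrix times column of vector polynomials -/
noncomputable def mm (A : H →L[ℂ] H) {n : ℕ} (P : Fin n → Fin n → ℂ[X]) (F : Fin n → VS A)
    (i : Fin n) : VS A := ∑ j, pm A (P i j) (F j)

theorem mm_fst {A : H →L[ℂ] H} {n : ℕ} (P : Fin n → Fin n → ℂ[X]) (F : Fin n → VS A)
    (i : Fin n) (z : ℂ) : (mm A P F i).1.1 z = ∑ j, (P i j).eval z • (F j).1.1 z := by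
  unfold mm
  rw [Submodule.coe_sum, Prod.fst_sum, Finset.sum_apply]
  rfl

theorem mm_snd {A : H →L[ℂ] H} {n : ℕ} (P : Fin n → Fin n → ℂ[X]) (F : Fin n → VS A)
    (i : Fin n) : (mm A P F i).1.2 = ∑ j, aeval A (P i j) ((F j).1.2) := by
  unfold mm
  rw [Submodule.coe_sum, Prod.snd_sum]
  rfl

/-- conjugation by a unit and polynomials -/
theorem aeval_conj_unit (S : (H →L[ℂ] H)ˣ) (A : H →L[ℂ] H) (p : ℂ[X]) :
    aeval ((↑S⁻¹ : H →L[ℂ] H) * A * ↑S) p = (↑S⁻¹ : H →L[ℂ] H) * aeval A p * ↑S := by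
  induction p using Polynomial.induction_on' with
  | add p q hp hq => rw [map_add, map_add, hp, hq, mul_add, add_mul]
  | monomial n c =>
    rw [aeval_monomial, aeval_monomial]
    have h1 : ((↑S⁻¹ : H →L[ℂ] H) * A * ↑S) ^ n = (↑S⁻¹ : H →L[ℂ] H) * A ^ n * ↑S := by
      rw [← Units.conj_pow']
    rw [h1]
    rw [← mul_assoc, ← mul_assoc, Algebra.commutes c (↑S⁻¹ : H →L[ℂ] H)]
    rw [mul_assoc (↑S⁻¹ : H →L[ℂ] H)]

variable [CompleteSpace H]

/-- the positive square root attached to a contraction `T : E → H` which is bounded below on the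
adjoint side -/
theorem exists_root {E : Type u} [NormedAddCommGroup E] [InnerProductSpace ℂ E] [CompleteSpace E]
    (T : E →L[ℂ] H) (hT : ∀ ξ, ‖T ξ‖ ≤ ‖ξ‖) (hT2 : ∀ h : H, ‖h‖ ≤ 2 * ‖T.adjoint h‖) :
    ∃ S : (H →L[ℂ] H)ˣ, ‖(S : H →L[ℂ] H)‖ ≤ 1 ∧ ‖(↑S⁻¹ : H →L[ℂ] H)‖ ≤ 2 ∧
      (∀ ξ, ‖(↑S⁻¹ : H →L[ℂ] H) (T ξ)‖ ≤ ‖ξ‖) ∧
      ∀ x : H, ∃ ξ : E, T ξ = (S : H →L[ℂ] H) x ∧ ‖ξ‖ = ‖x‖ := by
  set R : H →L[ℂ] H := T ∘L T.adjoint with hR
  have hRpos : 0 ≤ R := by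
    rw [ContinuousLinearMap.nonneg_iff_isPositive]
    exact ContinuousLinearMap.isPositive_self_comp_adjoint T
  set Q : H →L[ℂ] H := CFC.sqrt R with hQ
  have hQQ : Q * Q = R := CFC.sqrt_mul_sqrt_self R hRpos
  have hQ0 : 0 ≤ Q := CFC.sqrt_nonneg R
  have hQsa : IsSelfAdjoint Q := IsSelfAdjoint.of_nonneg hQ0
  have hQadj : Q.adjoint = Q := hQsa
  have hQin : ∀ x y : H, inner ℂ (Q x) y = inner ℂ x (Q y) := by
    intro x y
    rw [← ContinuousLinearMap.adjoint_inner_right, hQadj]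
  have hRin : ∀ x : H, inner ℂ x (R x) = ((‖T.adjoint x‖ ^ 2 : ℝ) : ℂ) := by
    intro x
    rw [hR, ContinuousLinearMap.comp_apply, ← ContinuousLinearMap.adjoint_inner_left,
      inner_self_eq_norm_sq_to_K]
    push_cast
    rfl
  have hQn : ∀ x : H, ‖Q x‖ = ‖T.adjoint x‖ := by
    intro x
    have h1 : ((‖Q x‖ ^ 2 : ℝ) : ℂ) = ((‖T.adjoint x‖ ^ 2 : ℝ) : ℂ) := by
      rw [← hRin, ← hQQ, ContinuousLinearMap.mul_apply, ← hQin, inner_self_eq_norm_sq_to_K]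
      push_cast
      rfl
    have h2 : ‖Q x‖ ^ 2 = ‖T.adjoint x‖ ^ 2 := by exact_mod_cast h1
    exact (sq_eq_sq₀ (norm_nonneg _) (norm_nonneg _)).1 h2
  have hTadj : ∀ x : H, ‖T.adjoint x‖ ≤ ‖x‖ := by
    intro x
    have h1 : ‖T‖ ≤ 1 := T.opNorm_le_bound zero_le_one fun ξ => by rw [one_mul]; exact hT ξ
    have h2 : ‖T.adjoint‖ ≤ 1 := by
      rw [LinearIsometryEquiv.norm_map]; exact h1
    calc ‖T.adjoint x‖ ≤ ‖T.adjoint‖ * ‖x‖ := T.adjoint.le_opNorm x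
      _ ≤ 1 * ‖x‖ := mul_le_mul_of_nonneg_right h2 (norm_nonneg _)
      _ = ‖x‖ := one_mul _
  have hRu : IsUnit R := by
    refine ContinuousLinearMap.isUnit_of_forall_le_norm_inner_map R (c := 1 / 4) (by norm_num)
      fun x => ?_
    have h1 : ‖inner ℂ (R x) x‖ = ‖T.adjoint x‖ ^ 2 := by
      rw [← inner_conj_symm, RCLike.norm_conj, hRin, Complex.norm_real, Real.norm_eq_abs,
        abs_of_nonneg (by positivity)]
    rw [h1]
    have h2 := hT2 x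
    have h3 := pow_le_pow_left₀ (norm_nonneg _) h2 2
    rw [mul_pow] at h3
    push_cast
    linarith
  have hQu : IsUnit Q := by
    rw [← hQQ] at hRu
    exact isUnit_mul_self_iff.1 hRu
  obtain ⟨S, hS⟩ := hQu
  have hSi : ∀ x : H, Q ((↑S⁻¹ : H →L[ℂ] H) x) = x := by
    intro x
    rw [← hS, ← ContinuousLinearMap.mul_apply, Units.mul_inv]; rfl
  have hiS : ∀ x : H, (↑S⁻¹ : H →L[ℂ] H) (Q x) = x := by
    intro x
    rw [← hS, ← ContinuousLinearMap.mul_apply, Units.inv_mul]; rfl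
  have hSin : ∀ x y : H, inner ℂ ((↑S⁻¹ : H →L[ℂ] H) x) y =
      inner ℂ x ((↑S⁻¹ : H →L[ℂ] H) y) := by
    intro x y
    have h1 := hQin ((↑S⁻¹ : H →L[ℂ] H) x) ((↑S⁻¹ : H →L[ℂ] H) y)
    rw [hSi, hSi] at h1
    exact h1.symm
  refine ⟨S, ?_, ?_, fun ξ => ?_, fun x => ?_⟩
  · refine ContinuousLinearMap.opNorm_le_bound _ zero_le_one fun x => ?_
    rw [hS, hQn, one_mul]; exact hTadj x
  · refine ContinuousLinearMap.opNorm_le_bound _ (by norm_num) fun x => ?_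
    have h1 := hT2 ((↑S⁻¹ : H →L[ℂ] H) x)
    rw [← hQn, hSi] at h1
    exact h1
  · set y := (↑S⁻¹ : H →L[ℂ] H) (T ξ) with hy
    have h1 : ‖T.adjoint ((↑S⁻¹ : H →L[ℂ] H) y)‖ = ‖y‖ := by rw [← hQn, hSi]
    have h2 : inner ℂ y y = inner ℂ (T.adjoint ((↑S⁻¹ : H →L[ℂ] H) y)) ξ := by
      conv_lhs => rhs; rw [hy]
      rw [← hSin, ContinuousLinearMap.adjoint_inner_left]
    have h3 : ‖y‖ ^ 2 ≤ ‖y‖ * ‖ξ‖ := by
      have h4 : ((‖y‖ ^ 2 : ℝ) : ℂ) = inner ℂ y y := by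
        rw [inner_self_eq_norm_sq_to_K]; push_cast; rfl
      have h5 : ‖y‖ ^ 2 = ‖(inner ℂ y y : ℂ)‖ := by
        rw [← h4, Complex.norm_real, Real.norm_eq_abs, abs_of_nonneg (by positivity)]
      rw [h5, h2]
      refine (norm_inner_le_norm _ _).trans (le_of_eq ?_)
      rw [h1]
    rcases (norm_nonneg y).eq_or_lt with h0 | h0
    · rw [← h0]; exact norm_nonneg _
    · rw [sq] at h3
      exact le_of_mul_le_mul_left h3 h0
  · refine ⟨T.adjoint ((↑S⁻¹ : H →L[ℂ] H) x), ?_, ?_⟩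
    · have h1 : T (T.adjoint ((↑S⁻¹ : H →L[ℂ] H) x)) = R ((↑S⁻¹ : H →L[ℂ] H) x) := rfl
      rw [h1, ← hQQ, ContinuousLinearMap.mul_apply, hSi, hS]
    · rw [← hQn, hSi]

/-- **The similarity**, in terms of sums of squares. -/
theorem exists_similarity [Nontrivial H] (A : H →L[ℂ] H) :
    ∃ S : (H →L[ℂ] H)ˣ, ‖(S : H →L[ℂ] H)‖ ≤ 1 ∧ ‖(↑S⁻¹ : H →L[ℂ] H)‖ ≤ 2 ∧
      ∀ (n : ℕ) (P : Fin n → Fin n → ℂ[X]) (m : ℝ), 0 ≤ m →
        (∀ z ∈ W A, ∀ c : Fin n → ℂ,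
          ∑ i, ‖∑ j, (P i j).eval z * c j‖ ^ 2 ≤ m ^ 2 * ∑ j, ‖c j‖ ^ 2) →
        ∀ x : Fin n → H,
          ∑ i, ‖∑ j, (aeval ((↑S⁻¹ : H →L[ℂ] H) * A * ↑S) (P i j)) (x j)‖ ^ 2 ≤
            m ^ 2 * ∑ j, ‖x j‖ ^ 2 := by
  obtain ⟨E, _, _, _, ι, hι1, hι2, hι3, hι4⟩ := exists_hilbert A
  -- the evaluation at `A`
  let ev : VS A →ₗ[ℂ] H :=
    { toFun := fun F => F.1.2, map_add' := fun _ _ => rfl, map_smul' := fun _ _ => rfl }
  have hev : ∃ C, ∀ F, ‖ev F‖ ≤ C * ‖ι F‖ := ⟨1, fun F => by rw [one_mul]; exact hι2 F⟩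
  set T : E →L[ℂ] H := ev.extendOfNorm ι with hTdef
  have hTι : ∀ F : VS A, T (ι F) = F.1.2 := fun F => LinearMap.extendOfNorm_eq hι1 hev F
  have hT : ∀ ξ, ‖T ξ‖ ≤ ‖ξ‖ := by
    intro ξ
    refine hι1.induction_on ξ (isClosed_le (T.continuous.norm) continuous_norm) fun F => ?_
    rw [hTι]; exact hι2 F
  have hT2 : ∀ h : H, ‖h‖ ≤ 2 * ‖T.adjoint h‖ := by
    intro h
    have h1 : T (ι (cst A h)) = h := by rw [hTι]; rfl
    have h2 : ‖h‖ ^ 2 = ‖(inner ℂ h h : ℂ)‖ := by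
      have h4 : ((‖h‖ ^ 2 : ℝ) : ℂ) = inner ℂ h h := by
        rw [inner_self_eq_norm_sq_to_K]; push_cast; rfl
      rw [← h4, Complex.norm_real, Real.norm_eq_abs, abs_of_nonneg (by positivity)]
    have h3 : (inner ℂ h h : ℂ) = inner ℂ (T.adjoint h) (ι (cst A h)) := by
      rw [ContinuousLinearMap.adjoint_inner_left, h1]
    have h4 : ‖h‖ ^ 2 ≤ ‖h‖ * (2 * ‖T.adjoint h‖) := by
      rw [h2, h3]
      refine (norm_inner_le_norm _ _).trans ?_
      have h5 := mul_le_mul_of_nonneg_left (hι3 h) (norm_nonneg (T.adjoint h))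
      linarith
    rcases (norm_nonneg h).eq_or_lt with h0 | h0
    · rw [← h0]; positivity
    · rw [sq] at h4
      exact le_of_mul_le_mul_left h4 h0
  obtain ⟨S, hS1, hS2, hS3, hS4⟩ := exists_root T hT hT2
  refine ⟨S, hS1, hS2, fun n P m hm hP x => ?_⟩
  choose ξ hξ1 hξ2 using fun j => hS4 (x j)
  -- the inequality on the dense subspace, hence everywhere
  have hall : ∀ η : Fin n → E, ∑ i, ‖(↑S⁻¹ : H →L[ℂ] H) (∑ j, aeval A (P i j) (T (η j)))‖ ^ 2 ≤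
      m ^ 2 * ∑ j, ‖η j‖ ^ 2 := by
    have hdense : DenseRange (Pi.map (fun _ : Fin n => (ι : VS A → E))) :=
      DenseRange.piMap fun _ => hι1
    intro η
    refine hdense.induction_on η (isClosed_le ?_ ?_) fun F => ?_
    · refine continuous_finsetSum _ fun i _ => Continuous.pow (Continuous.norm ?_) 2
      refine (↑S⁻¹ : H →L[ℂ] H).continuous.comp (continuous_finsetSum _ fun j _ => ?_)
      exact (aeval A (P i j)).continuous.comp (T.continuous.comp (continuous_apply j))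
    · refine continuous_const.mul (continuous_finsetSum _ fun j _ => ?_)
      exact (continuous_apply j).norm.pow 2
    · have e1 : ∀ i, ‖(↑S⁻¹ : H →L[ℂ] H) (∑ j, aeval A (P i j)
          (T (Pi.map (fun _ : Fin n => (ι : VS A → E)) F j)))‖ ≤ ‖ι (mm A P F i)‖ := by
        intro i
        have e2 : ∑ j, aeval A (P i j) (T (Pi.map (fun _ : Fin n => (ι : VS A → E)) F j)) =
            T (ι (mm A P F i)) := by
          rw [hTι, mm_snd]
          refine Finset.sum_congr rfl fun j _ => ?_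
          rw [Pi.map_apply, hTι]
        rw [e2]
        exact hS3 _
      have e3 : ∑ i, ‖ι (mm A P F i)‖ ^ 2 ≤ ∑ j, ‖ι ((m : ℂ) • F j)‖ ^ 2 := by
        refine hι4 n (fun j => (m : ℂ) • F j) (fun i => mm A P F i) fun z hz v => ?_
        have e4 := hP z hz fun j => inner ℂ v ((F j).1.1 z)
        have e5 : ∀ i, inner ℂ v ((mm A P F i).1.1 z) =
            ∑ j, (P i j).eval z * (inner ℂ v ((F j).1.1 z) : ℂ) := by
          intro i
          rw [mm_fst, inner_sum]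
          exact Finset.sum_congr rfl fun j _ => inner_smul_right _ _ _
        have e6 : ∀ j, ‖(inner ℂ v (((m : ℂ) • F j : VS A).1.1 z) : ℂ)‖ ^ 2 =
            m ^ 2 * ‖(inner ℂ v ((F j).1.1 z) : ℂ)‖ ^ 2 := by
          intro j
          have e7 : ((m : ℂ) • F j : VS A).1.1 z = (m : ℂ) • (F j).1.1 z := rfl
          rw [e7, inner_smul_right, norm_mul, Complex.norm_real, Real.norm_eq_abs, mul_pow, sq_abs]
        simp only [e5, e6, ← Finset.mul_sum]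
        exact e4
      have e8 : ∑ j, ‖ι ((m : ℂ) • F j)‖ ^ 2 =
          m ^ 2 * ∑ j, ‖Pi.map (fun _ : Fin n => (ι : VS A → E)) F j‖ ^ 2 := by
        rw [Finset.mul_sum]
        refine Finset.sum_congr rfl fun j _ => ?_
        rw [map_smul, norm_smul, Complex.norm_real, Real.norm_eq_abs, mul_pow, sq_abs,
          Pi.map_apply]
      rw [← e8]
      refine le_trans (Finset.sum_le_sum fun i _ => ?_) e3
      exact pow_le_pow_left₀ (norm_nonneg _) (e1 i) 2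
  have h1 := hall ξ
  simp only [hξ1, hξ2] at h1
  refine le_trans (le_of_eq ?_) h1
  refine Finset.sum_congr rfl fun i _ => ?_
  congr 2
  rw [map_sum]
  refine Finset.sum_congr rfl fun j _ => ?_
  rw [aeval_conj_unit, ContinuousLinearMap.mul_apply, ContinuousLinearMap.mul_apply]

end Vale.Agent.P123.H628
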