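import Vale.Agent.P123.H628.St5
import Vale.Agent.P123.H628.SimDefs
import Vale.Agent.P123.H686.Mat5

/-! # P123: the similarity, polynomials and rational functions -/

open Polynomial Finset

namespace Vale.Agent.P123.H628

open Vale.Agent.P123 Vale.Agent.P123.H686

universe u

variable {H : Type u} [NormedAddCommGroup H] [InnerProductSpace ℂ H]

theorem nrm_le_sup (A : H →L[ℂ] H) {n : ℕ} (P : Matrix (Fin n) (Fin n) ℂ[X]) {z : ℂ}
    (hz : z ∈ W A) : nrm P z ≤ supOnW A P := by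
  unfold supOnW
  obtain ⟨C, hC⟩ := (isCompact_closedBall (0 : ℂ) ‖A‖).exists_bound_of_continuousOn
    (f := fun z => nrm P z) (continuous_nrm P).continuousOn
  refine le_csSup ⟨C, ?_⟩ ⟨z, hz, rfl⟩
  rintro _ ⟨w, hw, rfl⟩
  exact (le_abs_self _).trans (hC w (by simpa using norm_le_of_mem_W hw))

theorem supOnW_nonneg (A : H →L[ℂ] H) {n : ℕ} (P : Matrix (Fin n) (Fin n) ℂ[X]) :
    0 ≤ supOnW A P := by
  unfold supOnW
  apply Real.sSup_nonneg
  rintro _ ⟨z, -, rfl⟩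
  exact norm_nonneg _

theorem norm_blockOp_le {n : ℕ} (T : Fin n → Fin n → (H →L[ℂ] H)) {m : ℝ} (hm : 0 ≤ m)
    (h : ∀ x : Fin n → H, ∑ i, ‖∑ j, T i j (x j)‖ ^ 2 ≤ m ^ 2 * ∑ j, ‖x j‖ ^ 2) :
    ‖blockOp T‖ ≤ m := by
  refine ContinuousLinearMap.opNorm_le_bound _ hm fun x => ?_
  apply abs_le_of_sq_le_sq' _ (by positivity) |>.2
  rw [mul_pow, norm_sq_eq', norm_sq_eq']
  simp only [blockOp_apply]
  exact h fun j => x j

/-- **The similarity**, polynomial matrices. -/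
theorem sim_poly [CompleteSpace H] [Nontrivial H] (A : H →L[ℂ] H) :
    ∃ S : (H →L[ℂ] H)ˣ, ‖(S : H →L[ℂ] H)‖ ≤ 1 ∧ ‖(↑S⁻¹ : H →L[ℂ] H)‖ ≤ 2 ∧
      ∀ (n : ℕ) (P : Matrix (Fin n) (Fin n) ℂ[X]),
        normAt ((↑S⁻¹ : H →L[ℂ] H) * A * (↑S : H →L[ℂ] H)) P ≤ supOnW A P := by
  obtain ⟨S, h1, h2, h3⟩ := exists_similarity A
  refine ⟨S, h1, h2, fun n P => ?_⟩
  unfold normAt
  refine norm_blockOp_le _ (supOnW_nonneg A P) fun x => ?_
  refine h3 n (fun i j => P i j) (supOnW A P) (supOnW_nonneg A P) (fun z hz c => ?_) x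
  refine (sum_sq_le_nrm (P.map (eval z)) c).trans ?_
  have h4 : nrm P z ≤ supOnW A P := nrm_le_sup A P hz
  have h5 : 0 ≤ nrm P z := norm_nonneg _
  unfold nrm at h4 h5
  gcongr

/-- scalar polynomials -/
theorem sim_scalar {A B : H →L[ℂ] H}
    (hB : ∀ (n : ℕ) (P : Matrix (Fin n) (Fin n) ℂ[X]), normAt B P ≤ supOnW A P) (p : ℂ[X]) :
    ‖aeval B p‖ ≤ sSup ((fun z => ‖p.eval z‖) '' W A) := by
  have h1 := hB 1 (p • (1 : Matrix (Fin 1) (Fin 1) ℂ[X]))
  rw [supOnW_smul_one le_rfl] at h1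
  exact (aeval_le_normAt le_rfl B p).trans h1

theorem sim_scalar_le [Nontrivial H] {A B : H →L[ℂ] H}
    (hB : ∀ (n : ℕ) (P : Matrix (Fin n) (Fin n) ℂ[X]), normAt B P ≤ supOnW A P) (p : ℂ[X]) {m : ℝ}
    (h : ∀ z ∈ closure (numRange A), ‖p.eval z‖ ≤ m) : ‖aeval B p‖ ≤ m := by
  refine (sim_scalar hB p).trans ?_
  have hne : (numRange A).Nonempty := by
    obtain ⟨x, hx⟩ := exists_norm_eq H zero_le_one
    exact ⟨_, x, hx, rfl⟩
  apply csSup_le (hne.image _)
  rintro _ ⟨z, hz, rfl⟩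
  exact h z (subset_closure hz)

/-- rational matrices -/
theorem sim_rat [CompleteSpace H] [Nontrivial H] {A B : H →L[ℂ] H}
    (hB : ∀ (n : ℕ) (P : Matrix (Fin n) (Fin n) ℂ[X]), normAt B P ≤ supOnW A P) {n : ℕ}
    (P : Matrix (Fin n) (Fin n) ℂ[X]) (Q : ℂ[X])
    (hQ : ∀ z ∈ closure (numRange A), Q.eval z ≠ 0) (G : H →L[ℂ] H) (hG : G * aeval B Q = 1) :
    ‖blockOp fun i j => aeval B (P i j) * G‖ ≤ sSup ((fun z =>
      ‖Matrix.toEuclideanCLM (𝕜 := ℂ) (P.map fun p => p.eval z / Q.eval z)‖) '' numRange A) := by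
  simp only [nrm_div]
  set K := closure (numRange A) with hKdef
  have hK : IsCompact K := H880.compact_cl A
  have hc : Convex ℝ K := (convex_numRange A).closure
  have hne : (numRange A).Nonempty := by
    obtain ⟨x, hx⟩ := exists_norm_eq H zero_le_one
    exact ⟨_, x, hx, rfl⟩
  obtain ⟨z0, hz0⟩ := hne.closure
  obtain ⟨MQ, hMQ⟩ := hK.exists_bound_of_continuousOn (Q.continuous.continuousOn)
  obtain ⟨MP, hMP⟩ := hK.exists_bound_of_continuousOn ((continuous_nrm P).continuousOn)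
  have hMQ0 : 0 ≤ MQ := (norm_nonneg _).trans (hMQ z0 hz0)
  have hMP0 : 0 ≤ MP := (norm_nonneg _).trans (hMP z0 hz0)
  have hinv := H880.PolyLim.inv_poly hK hc Q hQ
  set S : ℝ := sSup ((fun z => ‖(Q.eval z)⁻¹‖ * nrm P z) '' numRange A) with hS
  have hbdd : BddAbove ((fun z => ‖(Q.eval z)⁻¹‖ * nrm P z) '' numRange A) := by
    have hcont : ContinuousOn (fun z => ‖(Q.eval z)⁻¹‖ * nrm P z) K :=
      ((Q.continuous.continuousOn.inv₀ hQ).norm).mul (continuous_nrm P).continuousOn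
    exact ((hK.image_of_continuousOn hcont).bddAbove).mono (Set.image_mono subset_closure)
  have hfin : ∀ ε : ℝ, 0 < ε → ‖blockOp fun i j => aeval B (P i j) * G‖
      ≤ S + ε * (MP + normAt B P * (‖G‖ * MQ)) := by
    intro ε hε
    obtain ⟨r, hr⟩ := hinv ε hε
    have hr2 : ‖1 - aeval B Q * aeval B r‖ ≤ MQ * ε := by
      have e : 1 - aeval B Q * aeval B r = aeval B (1 - Q * r) := by simp
      rw [e]
      apply sim_scalar_le hB
      intro z hz
      have h1 : (1 - Q * r).eval z = -(Q.eval z * (r.eval z - (Q.eval z)⁻¹)) := by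
        rw [eval_sub, eval_mul, eval_one, mul_sub, mul_inv_cancel₀ (hQ z hz)]; ring
      rw [h1, norm_neg, norm_mul]
      exact mul_le_mul (hMQ z hz) (hr z hz) (norm_nonneg _) hMQ0
    have hBr : ‖G - aeval B r‖ ≤ ‖G‖ * (MQ * ε) := by
      have e : G - aeval B r = G * (1 - aeval B Q * aeval B r) := by
        rw [mul_sub, mul_one, ← mul_assoc, hG, one_mul]
      rw [e]
      exact (norm_mul_le _ _).trans (by gcongr)
    have e1 : (blockOp fun i j => aeval B (P i j) * G)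
        = (blockOp fun i j => aeval B ((P.map fun p => p * r) i j))
          + blockOp fun i j => aeval B (P i j) * (G - aeval B r) := by
      rw [← blockOp_add]
      congr 1
      funext i j
      simp only [Matrix.map_apply, map_mul]
      rw [mul_sub]; abel
    have h1 : ‖blockOp fun i j => aeval B ((P.map fun p => p * r) i j)‖
        ≤ S + ε * MP := by
      have h2 := hB n (P.map fun p => p * r)
      have h3 : supOnW A (P.map fun p => p * r) ≤ S + ε * MP := by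
        apply csSup_le (hne.image _)
        rintro _ ⟨z, hz, rfl⟩
        have hzK : z ∈ K := subset_closure hz
        have h4 : nrm (P.map fun p => p * r) z ≤ S + ε * MP := by
          rw [nrm_mul]
          have h5 : ‖r.eval z‖ ≤ ‖(Q.eval z)⁻¹‖ + ε := by
            calc ‖r.eval z‖ = ‖(Q.eval z)⁻¹ + (r.eval z - (Q.eval z)⁻¹)‖ := by congr 1; ring
              _ ≤ _ := (norm_add_le _ _).trans (by gcongr; exact hr z hzK)
          have h6 : 0 ≤ nrm P z := norm_nonneg _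
          have h7 : nrm P z ≤ MP := (le_abs_self _).trans (hMP z hzK)
          calc ‖r.eval z‖ * nrm P z ≤ (‖(Q.eval z)⁻¹‖ + ε) * nrm P z := by gcongr
            _ = ‖(Q.eval z)⁻¹‖ * nrm P z + ε * nrm P z := by ring
            _ ≤ S + ε * MP := by
              gcongr
              exact le_csSup hbdd ⟨z, hz, rfl⟩
        exact h4
      unfold normAt at h2
      exact h2.trans h3
    rw [e1]
    refine (norm_add_le _ _).trans ?_
    have h2 := norm_blockOp_mul_le (fun i j => aeval B (P i j)) (G - aeval B r)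
    have h3 : ‖blockOp fun i j => aeval B (P i j)‖ * ‖G - aeval B r‖
        ≤ normAt B P * (‖G‖ * (MQ * ε)) := by
      unfold normAt
      gcongr
    calc _ ≤ (S + ε * MP) + normAt B P * (‖G‖ * (MQ * ε)) :=
          add_le_add h1 (h2.trans h3)
      _ = _ := by ring
  refine le_of_forall_pos_le_add fun δ hδ => ?_
  have hop : 0 ≤ normAt B P := norm_nonneg _
  set N : ℝ := MP + normAt B P * (‖G‖ * MQ) + 1 with hN
  have hN0 : 0 < N := by positivity
  refine (hfin (δ / N) (by positivity)).trans ?_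
  have h4 : δ / N * (MP + normAt B P * (‖G‖ * MQ)) ≤ δ := by
    rw [div_mul_eq_mul_div, div_le_iff₀ hN0]
    nlinarith
  linarith

/-- **Upper bound**: the similarity constant is at most `2`. -/
theorem similar_two [CompleteSpace H] [Nontrivial H] (A : H →L[ℂ] H) : SimilarSpectral A 2 := by
  obtain ⟨S, h1, h2, h3⟩ := sim_poly A
  refine ⟨S, ?_, fun Q hQ => ?_⟩
  · calc ‖(S : H →L[ℂ] H)‖ * ‖(↑S⁻¹ : H →L[ℂ] H)‖ ≤ 1 * 2 :=
        mul_le_mul h1 h2 (norm_nonneg _) zero_le_one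
      _ = 2 := one_mul _
  set B : H →L[ℂ] H := (↑S⁻¹ : H →L[ℂ] H) * A * ↑S with hBdef
  obtain ⟨R, hR1, hR2, -⟩ := H880.rational_bound A 1 Q hQ
  have hU : IsUnit (aeval B Q) := by
    rw [hBdef, aeval_conj_unit]
    exact ((Units.isUnit S⁻¹).mul ⟨⟨aeval A Q, R, hR2, hR1⟩, rfl⟩).mul (Units.isUnit S)
  refine ⟨hU, fun n P => ?_⟩
  obtain ⟨V, hV⟩ := hU
  have h4 : Ring.inverse (aeval B Q) = ↑V⁻¹ := by rw [← hV, Ring.inverse_unit]
  have h5 : (↑V⁻¹ : H →L[ℂ] H) * aeval B Q = 1 := by rw [← hV]; exact V.inv_mul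
  have h6 := sim_rat h3 (Matrix.of P) Q hQ (↑V⁻¹ : H →L[ℂ] H) h5
  have e2 : ∀ z : ℂ, matNorm (fun i j => (P i j).eval z / Q.eval z)
      = ‖Matrix.toEuclideanCLM (𝕜 := ℂ) ((Matrix.of P).map fun p => p.eval z / Q.eval z)‖ := by
    intro z
    rw [← matNorm_eq]; rfl
  rw [h4, blockNorm_eq]
  simp only [e2]
  exact h6

/-- A similarity constant bounds the constant in Crouzeix's inequality. -/
theorem scalarBound_of_similar {A : H →L[ℂ] H} {C : ℝ} (h : SimilarSpectral A C) :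
    ScalarBound A C := by
  obtain ⟨S, hS, hB⟩ := h
  intro p
  set B : H →L[ℂ] H := (↑S⁻¹ : H →L[ℂ] H) * A * ↑S with hBdef
  obtain ⟨-, h1⟩ := hB 1 (fun z _ => by simp)
  have h2 := h1 1 (fun i j => (p • (1 : Matrix (Fin 1) (Fin 1) ℂ[X])) i j)
  simp only [map_one, Ring.inverse_one, mul_one, eval_one, div_one] at h2
  have e1 : blockNorm (fun i j => aeval B ((p • (1 : Matrix (Fin 1) (Fin 1) ℂ[X])) i j))
      = normAt B (p • (1 : Matrix (Fin 1) (Fin 1) ℂ[X])) := by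
    rw [blockNorm_eq]; rfl
  have e2 : ∀ z : ℂ, matNorm (fun i j => ((p • (1 : Matrix (Fin 1) (Fin 1) ℂ[X])) i j).eval z)
      = ‖Matrix.toEuclideanCLM (𝕜 := ℂ)
          ((p • (1 : Matrix (Fin 1) (Fin 1) ℂ[X])).map (eval z))‖ := by
    intro z
    rw [← matNorm_eq]; rfl
  rw [e1] at h2
  simp only [e2] at h2
  have e3 := supOnW_smul_one le_rfl A p
  unfold supOnW at e3
  rw [e3] at h2
  have h3 : ‖aeval B p‖ ≤ sSup ((fun z => ‖p.eval z‖) '' W A) :=
    (aeval_le_normAt le_rfl B p).trans h2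
  have h4 : aeval A p = (S : H →L[ℂ] H) * aeval B p * ↑S⁻¹ := by
    rw [hBdef, aeval_conj_unit]
    rw [← mul_assoc, ← mul_assoc, Units.mul_inv, one_mul, mul_assoc, Units.mul_inv, mul_one]
  have h5 : 0 ≤ sSup ((fun z => ‖p.eval z‖) '' W A) := (norm_nonneg _).trans h3
  calc ‖aeval A p‖ ≤ ‖(S : H →L[ℂ] H)‖ * ‖aeval B p‖ * ‖(↑S⁻¹ : H →L[ℂ] H)‖ := by
        rw [h4]
        exact (norm_mul_le _ _).trans (mul_le_mul_of_nonneg_right (norm_mul_le _ _)
          (norm_nonneg _))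
    _ = ‖(S : H →L[ℂ] H)‖ * ‖(↑S⁻¹ : H →L[ℂ] H)‖ * ‖aeval B p‖ := by ring
    _ ≤ ‖(S : H →L[ℂ] H)‖ * ‖(↑S⁻¹ : H →L[ℂ] H)‖ * sSup ((fun z => ‖p.eval z‖) '' W A) :=
        mul_le_mul_of_nonneg_left h3 (by positivity)
    _ ≤ C * sSup ((fun z => ‖p.eval z‖) '' W A) := mul_le_mul_of_nonneg_right hS h5

end Vale.Agent.P123.H628
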